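import Mathlib

/-!
Cycle counts of permutations (fixed points included) and the genus inequality for hypermaps:
`nc σ + nc τ + nc (σ * τ) ≤ |X| + 2 * (number of orbits of ⟨σ, τ⟩)`.
-/

set_option autoImplicit false

namespace Crest.Agent.PermGenus

open Equiv Equiv.Perm

variable {X : Type*}

/-- number of classes of a setoid -/
noncomputable def ncl (r : Setoid X) : ℕ := Nat.card (Quotient r)

/-- the setoid obtained from `r` by merging the classes of `a` and `b` -/
def merge (r : Setoid X) (a b : X) : Setoid X where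
  r x y := r x y ∨ (r x a ∧ r b y) ∨ (r x b ∧ r a y)
  iseqv := by
    refine ⟨fun x => Or.inl (r.refl' x), ?_, ?_⟩
    · rintro x y (h | ⟨h1, h2⟩ | ⟨h1, h2⟩)
      · exact Or.inl (r.symm' h)
      · exact Or.inr (Or.inr ⟨r.symm' h2, r.symm' h1⟩)
      · exact Or.inr (Or.inl ⟨r.symm' h2, r.symm' h1⟩)
    · rintro x y z (h | ⟨h1, h2⟩ | ⟨h1, h2⟩) (k | ⟨k1, k2⟩ | ⟨k1, k2⟩)
      · exact Or.inl (r.trans' h k)
      · exact Or.inr (Or.inl ⟨r.trans' h k1, k2⟩)
      · exact Or.inr (Or.inr ⟨r.trans' h k1, k2⟩)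
      · exact Or.inr (Or.inl ⟨h1, r.trans' h2 k⟩)
      · exact Or.inr (Or.inl ⟨h1, k2⟩)
      · exact Or.inl (r.trans' h1 k2)
      · exact Or.inr (Or.inr ⟨h1, r.trans' h2 k⟩)
      · exact Or.inl (r.trans' h1 k2)
      · exact Or.inr (Or.inr ⟨h1, k2⟩)

theorem merge_iff (r : Setoid X) (a b x y : X) :
    merge r a b x y ↔ r x y ∨ (r x a ∧ r b y) ∨ (r x b ∧ r a y) := Iff.rfl

theorem le_merge (r : Setoid X) (a b : X) : r ≤ merge r a b := fun _ _ h => Or.inl h

theorem merge_rel (r : Setoid X) (a b : X) : merge r a b a b :=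
  Or.inr (Or.inl ⟨r.refl' a, r.refl' b⟩)

theorem merge_le {r s : Setoid X} {a b : X} (h : r ≤ s) (hab : s a b) : merge r a b ≤ s := by
  rintro x y (k | ⟨k1, k2⟩ | ⟨k1, k2⟩)
  · exact h k
  · exact s.trans' (h k1) (s.trans' hab (h k2))
  · exact s.trans' (h k1) (s.trans' (s.symm' hab) (h k2))

theorem merge_eq_self {r : Setoid X} {a b : X} (hab : r a b) : merge r a b = r :=
  le_antisymm (merge_le le_rfl hab) (le_merge r a b)

theorem ncl_anti [Finite X] {r s : Setoid X} (h : r ≤ s) : ncl s ≤ ncl r := by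
  unfold ncl
  refine Nat.card_le_card_of_surjective (Quotient.map' id (fun _ _ k => h k) :
    Quotient r → Quotient s) ?_
  intro q
  induction q using Quotient.inductionOn' with
  | h x => exact ⟨Quotient.mk'' x, rfl⟩

theorem ncl_merge [Finite X] {r : Setoid X} {a b : X} (hab : ¬ r a b) :
    ncl (merge r a b) + 1 = ncl r := by
  classical
  unfold ncl
  have : Fintype (Quotient r) := Fintype.ofFinite _
  let f : {q : Quotient r // q ≠ Quotient.mk r b} → Quotient (merge r a b) :=
    fun q => (Quotient.map' id (fun _ _ k => le_merge r a b k) :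
      Quotient r → Quotient (merge r a b)) q.1
  have hf : Function.Bijective f := by
    constructor
    · rintro ⟨p, hp⟩ ⟨q, hq⟩ h
      induction p using Quotient.inductionOn' with
      | h x =>
      induction q using Quotient.inductionOn' with
      | h y =>
      have h' : merge r a b x y := Quotient.exact h
      apply Subtype.ext
      rcases h' with k | ⟨k1, k2⟩ | ⟨k1, k2⟩
      · exact Quotient.sound k
      · exact absurd (Quotient.sound (r.symm' k2)) hq
      · exact absurd (Quotient.sound k1) hp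
    · intro q
      induction q using Quotient.inductionOn' with
      | h x =>
      by_cases hx : r x b
      · refine ⟨⟨Quotient.mk r a, fun h => hab (Quotient.exact h)⟩, ?_⟩
        exact Quotient.sound (Or.inr (Or.inl ⟨r.refl' a, r.symm' hx⟩))
      · exact ⟨⟨Quotient.mk r x, fun h => hx (Quotient.exact h)⟩, rfl⟩
  rw [← Nat.card_eq_of_bijective f hf, Nat.card_eq_fintype_card, Nat.card_eq_fintype_card,
    Fintype.card_subtype_compl, Fintype.card_subtype_eq]
  have : 0 < Fintype.card (Quotient r) := Fintype.card_pos_iff.2 ⟨Quotient.mk r a⟩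
  omega

theorem ncl_le_merge [Finite X] (r : Setoid X) (a b : X) : ncl r ≤ ncl (merge r a b) + 1 := by
  by_cases hab : r a b
  · rw [merge_eq_self hab]; omega
  · rw [ncl_merge hab]

theorem ncl_bot [Finite X] : ncl (⊥ : Setoid X) = Nat.card X := by
  unfold ncl
  symm
  refine Nat.card_eq_of_bijective (Quotient.mk _) ⟨fun x y h => ?_, Quotient.mk_surjective⟩
  exact Quotient.exact h

theorem ncl_top [Nonempty X] : ncl (⊤ : Setoid X) = 1 := by
  unfold ncl
  rw [Nat.card_eq_one_iff_unique]
  refine ⟨⟨fun p q => ?_⟩, ⟨Quotient.mk _ (Classical.arbitrary X)⟩⟩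
  induction p using Quotient.inductionOn' with
  | h x =>
  induction q using Quotient.inductionOn' with
  | h y => exact Quotient.sound trivial

/-- the cycle setoid of a permutation -/
abbrev cyc (σ : Perm X) : Setoid X := Equiv.Perm.SameCycle.setoid σ

theorem cyc_iff (σ : Perm X) (x y : X) : cyc σ x y ↔ σ.SameCycle x y := Iff.rfl

/-- number of cycles, fixed points included -/
noncomputable def nc (σ : Perm X) : ℕ := ncl (cyc σ)

theorem nc_def (σ : Perm X) :
    nc σ = Nat.card (Quotient (Equiv.Perm.SameCycle.setoid σ)) := rfl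

theorem cyc_le [Finite X] {σ : Perm X} {s : Setoid X} (h : ∀ x, s x (σ x)) : cyc σ ≤ s := by
  intro x y hxy
  obtain ⟨n, rfl⟩ := (show σ.SameCycle x y from hxy).exists_nat_pow_eq
  clear hxy
  induction n with
  | zero => exact s.refl' x
  | succ n ih => rw [pow_succ', Perm.mul_apply]; exact s.trans' ih (h _)

theorem cyc_apply (σ : Perm X) (x : X) : cyc σ x (σ x) := ⟨1, by simp⟩

theorem cyc_one : cyc (1 : Perm X) = ⊥ := by
  ext x y
  simp [cyc_iff, sameCycle_one]

theorem nc_one [Finite X] : nc (1 : Perm X) = Nat.card X := by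
  rw [nc, cyc_one, ncl_bot]

theorem cyc_inv (σ : Perm X) : cyc σ⁻¹ = cyc σ := by
  ext x y
  simp [cyc_iff, sameCycle_inv]

theorem nc_inv (σ : Perm X) : nc σ⁻¹ = nc σ := by rw [nc, nc, cyc_inv]

variable [DecidableEq X]

theorem cyc_swap_mul_le [Finite X] (σ : Perm X) (a b : X) :
    cyc (swap a b * σ) ≤ merge (cyc σ) a b := by
  refine cyc_le fun x => ?_
  have h1 : merge (cyc σ) a b x (σ x) := le_merge _ a b (cyc_apply σ x)
  rw [Perm.mul_apply, swap_apply_def]
  split_ifs with h2 h3
  · rw [h2] at h1; exact (merge _ a b).trans' h1 (merge_rel _ a b)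
  · rw [h3] at h1; exact (merge _ a b).trans' h1 ((merge _ a b).symm' (merge_rel _ a b))
  · exact h1

theorem sameCycle_swap_mul [Finite X] {σ : Perm X} {a b : X} (hab : ¬ σ.SameCycle a b) :
    (swap a b * σ).SameCycle a b := by
  by_contra hT
  set τ := swap a b * σ with hτ
  have key : ∀ n : ℕ, σ.SameCycle a ((τ ^ n) a) := by
    intro n
    induction n with
    | zero => simp [SameCycle.refl]
    | succ n ih =>
      have h1 : σ.SameCycle a (σ ((τ ^ n) a)) := ih.trans (cyc_apply σ _)
      have h2 : σ ((τ ^ n) a) ≠ b := fun h => hab (h ▸ h1)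
      have h3 : σ ((τ ^ n) a) ≠ a := by
        intro h
        apply hT
        refine ⟨((n + 1 : ℕ) : ℤ), ?_⟩
        rw [zpow_natCast, pow_succ', Perm.mul_apply, hτ, Perm.mul_apply, h, swap_apply_left]
      rw [pow_succ', Perm.mul_apply, hτ, Perm.mul_apply, swap_apply_of_ne_of_ne h3 h2]
      exact h1
  have hy : τ.SameCycle a (τ⁻¹ a) := ⟨-1, by simp⟩
  obtain ⟨n, hn⟩ := hy.exists_nat_pow_eq
  have h4 := key n
  rw [hn] at h4
  have h5 : σ (τ⁻¹ a) = b := by
    have : σ = swap a b * τ := by rw [hτ, ← mul_assoc, swap_mul_self, one_mul]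
    rw [this, Perm.mul_apply]
    simp [hτ]
  exact hab (h5 ▸ h4.trans (cyc_apply σ _))

theorem cyc_swap_mul [Finite X] {σ : Perm X} {a b : X} (hab : ¬ σ.SameCycle a b) :
    cyc (swap a b * σ) = merge (cyc σ) a b := by
  refine le_antisymm (cyc_swap_mul_le σ a b) (merge_le ?_ (sameCycle_swap_mul hab))
  have h := cyc_swap_mul_le (swap a b * σ) a b
  rw [← mul_assoc, swap_mul_self, one_mul, merge_eq_self (sameCycle_swap_mul hab)] at h
  exact h

/-- joining two cycles -/
theorem nc_swap_mul_of_not [Finite X] {σ : Perm X} {a b : X} (hab : ¬ σ.SameCycle a b) :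
    nc (swap a b * σ) + 1 = nc σ := by
  rw [nc, cyc_swap_mul hab, ncl_merge hab, nc]

theorem nc_swap_mul_le [Finite X] (σ : Perm X) (a b : X) : nc (swap a b * σ) ≤ nc σ + 1 := by
  have h := cyc_swap_mul_le (swap a b * σ) a b
  rw [← mul_assoc, swap_mul_self, one_mul] at h
  have h1 := ncl_anti h
  have h2 := ncl_le_merge (cyc (swap a b * σ)) a b
  unfold nc; omega

theorem strip_aux [Fintype X] (τ : Perm X) (x : X) (hx : τ x ≠ x) :
    ¬ (swap x (τ x) * τ).SameCycle x (τ x) ∧ (swap x (τ x) * τ).support.card < τ.support.card := by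
  refine ⟨fun h => ?_, card_support_swap_mul hx⟩
  have hfix : (swap x (τ x) * τ) x = x := by simp
  exact hx (h.eq_of_left hfix).symm

/-- the sign is determined by the cycle count -/
theorem sign_eq_nc [Fintype X] (σ : Perm X) :
    sign σ = (-1) ^ (Fintype.card X + nc σ) := by
  induction h : σ.support.card using Nat.strong_induction_on generalizing σ with
  | _ n ih =>
  by_cases h1 : σ = 1
  · subst h1
    rw [nc_one, Nat.card_eq_fintype_card, ← two_mul, pow_mul]; simp
  · obtain ⟨x, hx⟩ : ∃ x, σ x ≠ x := by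
      by_contra hc; push Not at hc; exact h1 (Equiv.ext hc)
    obtain ⟨k1, k2⟩ := strip_aux σ x hx
    have e1 := ih _ (h ▸ k2) _ rfl
    have e2 := nc_swap_mul_of_not k1
    rw [← mul_assoc, swap_mul_self, one_mul] at e2
    rw [← e2, ← add_assoc, pow_succ, Perm.sign_mul, sign_swap hx.symm] at e1
    have : sign σ = -(-1 * sign σ) := by simp
    rw [this, e1]; simp

/-- splitting a cycle -/
theorem nc_swap_mul_of_same [Fintype X] {σ : Perm X} {a b : X} (hne : a ≠ b)
    (hab : σ.SameCycle a b) : nc (swap a b * σ) = nc σ + 1 := by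
  have h1 := nc_swap_mul_le σ a b
  have h2 : nc σ ≤ nc (swap a b * σ) := by
    have := ncl_anti (cyc_swap_mul_le σ a b)
    rwa [merge_eq_self hab] at this
  have h3 : nc (swap a b * σ) ≠ nc σ := by
    intro h
    have e1 := sign_eq_nc (swap a b * σ)
    rw [h, ← sign_eq_nc σ, Perm.sign_mul, sign_swap hne] at e1
    rcases Int.units_eq_one_or (sign σ) with k | k <;> rw [k] at e1 <;> revert e1 <;> decide
  omega

theorem not_sameCycle_swap_mul [Fintype X] {σ : Perm X} {a b : X} (hne : a ≠ b)
    (hab : σ.SameCycle a b) : ¬ (swap a b * σ).SameCycle a b := by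
  intro h
  have h1 := nc_swap_mul_of_same hne hab
  have h2 := nc_swap_mul_of_same hne h
  rw [← mul_assoc, swap_mul_self, one_mul] at h2
  omega

/-- parity form of Euler's formula -/
theorem nc_parity [Fintype X] (σ τ : Perm X) :
    (nc σ + nc τ + nc (σ * τ) + Fintype.card X) % 2 = 0 := by
  have h := sign_eq_nc (σ * τ)
  rw [Perm.sign_mul, sign_eq_nc σ, sign_eq_nc τ, ← pow_add] at h
  by_contra hc
  rcases Nat.even_or_odd (Fintype.card X + nc σ + (Fintype.card X + nc τ)) with k | k <;>
    rcases Nat.even_or_odd (Fintype.card X + nc (σ * τ)) with l | l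
  · rw [Nat.even_iff] at k l; omega
  · rw [k.neg_one_pow, l.neg_one_pow] at h; exact absurd h (by decide)
  · rw [k.neg_one_pow, l.neg_one_pow] at h; exact absurd h (by decide)
  · rw [Nat.odd_iff] at k l; omega

/-- The genus inequality. -/
theorem genus_ineq [Fintype X] (σ τ : Perm X) :
    nc σ + nc τ + nc (σ * τ) ≤ Fintype.card X + 2 * ncl (cyc σ ⊔ cyc τ) := by
  induction h : τ.support.card using Nat.strong_induction_on generalizing τ with
  | _ n ih =>
  by_cases h1 : τ = 1
  · subst h1
    rw [nc_one, Nat.card_eq_fintype_card, mul_one, cyc_one, sup_bot_eq, nc]; omega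
  · obtain ⟨x, hx⟩ : ∃ x, τ x ≠ x := by
      by_contra hc; push Not at hc; exact h1 (Equiv.ext hc)
    obtain ⟨k1, k2⟩ := strip_aux τ x hx
    set τ' := swap x (τ x) * τ with hτ'
    have e1 := ih _ (h ▸ k2) τ' rfl
    have hτ : τ = swap x (τ x) * τ' := by rw [hτ', ← mul_assoc, swap_mul_self, one_mul]
    have e2 := nc_swap_mul_of_not k1
    rw [← hτ] at e2
    have e3 : cyc τ = merge (cyc τ') x (τ x) := by rw [← cyc_swap_mul k1, ← hτ]
    have e4 : cyc σ ⊔ cyc τ = merge (cyc σ ⊔ cyc τ') x (τ x) := by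
      apply le_antisymm
      · refine sup_le (le_sup_left.trans (le_merge _ _ _)) ?_
        rw [e3]
        exact merge_le (le_sup_right.trans (le_merge _ _ _)) (merge_rel _ _ _)
      · refine merge_le (sup_le_sup_left (e3 ▸ le_merge _ _ _) _) ?_
        exact (le_sup_right : cyc τ ≤ cyc σ ⊔ cyc τ) (cyc_apply τ x)
    have e5 : σ * τ = swap (σ x) (σ (τ x)) * (σ * τ') := by
      rw [← mul_assoc, ← mul_swap_eq_swap_mul, mul_assoc, ← hτ]
    by_cases hj : (cyc σ ⊔ cyc τ') x (τ x)
    · rw [e4, merge_eq_self hj]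
      have := nc_swap_mul_le (σ * τ') (σ x) (σ (τ x))
      rw [← e5] at this
      omega
    · have hle : cyc (σ * τ') ≤ cyc σ ⊔ cyc τ' := by
        refine cyc_le fun y => ?_
        exact (cyc σ ⊔ cyc τ').trans'
          ((le_sup_right : cyc τ' ≤ cyc σ ⊔ cyc τ') (cyc_apply τ' y))
          ((le_sup_left : cyc σ ≤ cyc σ ⊔ cyc τ') (cyc_apply σ (τ' y)))
      have hn : ¬ (σ * τ').SameCycle (σ x) (σ (τ x)) := by
        intro hs
        apply hj
        have a1 := (le_sup_left : cyc σ ≤ cyc σ ⊔ cyc τ') (cyc_apply σ x)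
        have a2 := (le_sup_left : cyc σ ≤ cyc σ ⊔ cyc τ') (cyc_apply σ (τ x))
        exact (cyc σ ⊔ cyc τ').trans' a1
          ((cyc σ ⊔ cyc τ').trans' (hle hs) ((cyc σ ⊔ cyc τ').symm' a2))
      have e6 := nc_swap_mul_of_not hn
      rw [← e5] at e6
      have e7 := ncl_merge hj
      rw [← e4] at e7
      omega

omit [DecidableEq X] in
theorem nc_mul_comm (σ τ : Perm X) : nc (σ * τ) = nc (τ * σ) := by
  unfold nc ncl
  refine Nat.card_congr (Quotient.congr τ fun x y => ?_)
  have : τ * σ = τ * (σ * τ) * τ⁻¹ := by group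
  change (σ * τ).SameCycle x y ↔ (τ * σ).SameCycle (τ x) (τ y)
  rw [this, sameCycle_conj]
  simp

end Crest.Agent.PermGenus
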